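import Vale.Agent.P148.R2.H782.Path

/-!
# Monochromatic chains in a product space
-/

open MeasureTheory Set
open scoped ENNReal

namespace Vale.Agent.P148.R2.H782

variable {X : Type*} [MeasurableSpace X]

/-- Marginals of a product of copies of one probability measure. -/
theorem mp_comp {ι κ : Type*} [Fintype ι] [Fintype κ] (μ : Measure X) [IsProbabilityMeasure μ]
    {f : κ → ι} (hf : Function.Injective f) :
    MeasurePreserving (fun x : ι → X => fun k => x (f k)) (Measure.pi fun _ : ι => μ)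
      (Measure.pi fun _ : κ => μ) := by
  classical
  have hm : Measurable (fun x : ι → X => fun k => x (f k)) :=
    measurable_pi_lambda _ fun k => measurable_pi_apply _
  refine ⟨hm, ?_⟩
  symm
  refine Measure.pi_eq fun s hs => ?_
  rw [Measure.map_apply hm (MeasurableSet.univ_pi hs)]
  let t : ι → Set X := fun i => {x | ∀ k, f k = i → x ∈ s k}
  have h1 : (fun x : ι → X => fun k => x (f k)) ⁻¹' (Set.pi univ s) = Set.pi univ t := by
    ext x
    constructor
    · intro hx i _ k hk
      subst hk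
      exact hx k (mem_univ _)
    · intro hx k _
      exact hx (f k) (mem_univ _) k rfl
  rw [h1, Measure.pi_pi]
  symm
  refine Fintype.prod_of_injective f hf _ _ ?_ ?_
  · intro i hi
    have : t i = univ := by
      refine eq_univ_of_forall fun x k hk => ?_
      exact absurd ⟨k, hk⟩ hi
    rw [this, measure_univ]
  · intro k
    congr 1
    ext x
    constructor
    · intro hx k' hk'
      rw [hf hk']
      exact hx
    · intro hx
      exact hx k rfl

theorem mp_pair {ι : Type*} [Fintype ι] (μ : Measure X) [IsProbabilityMeasure μ]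
    {i j : ι} (hij : i ≠ j) :
    MeasurePreserving (fun x : ι → X => (x i, x j)) (Measure.pi fun _ : ι => μ) (μ.prod μ) := by
  have hf : Function.Injective (![i, j] : Fin 2 → ι) := by
    intro a b hab
    fin_cases a <;> fin_cases b <;> simp_all
  exact (measurePreserving_finTwoArrow μ).comp (mp_comp μ hf)

/-- The chains with all consecutive pairs in `A`. -/
def Ch (m : ℕ) (Gd : Set X) (A : Set (X × X)) : Set (Fin (m + 1) → X) :=
  {x | (∀ k, x k ∈ Gd) ∧ ∀ k : Fin m, (x k.castSucc, x k.succ) ∈ A}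

theorem measurableSet_Ch (m : ℕ) {Gd : Set X} {A : Set (X × X)} (hG : MeasurableSet Gd)
    (hA : MeasurableSet A) : MeasurableSet (Ch m Gd A) := by
  have h : Ch m Gd A = (⋂ k, (fun x : Fin (m + 1) → X => x k) ⁻¹' Gd) ∩
      ⋂ k : Fin m, (fun x : Fin (m + 1) → X => (x k.castSucc, x k.succ)) ⁻¹' A := by
    ext x
    simp [Ch]
  rw [h]
  exact (MeasurableSet.iInter fun k => measurable_pi_apply k hG).inter
    (MeasurableSet.iInter fun k =>
      ((measurable_pi_apply _).prodMk (measurable_pi_apply _)) hA)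

theorem path_measure {Z : Type*} [Fintype Z] {m N : ℕ} (hN : m ^ Fintype.card Z < N)
    (μ : Measure X) [IsProbabilityMeasure μ] {Gd : Set X} (hGd : MeasurableSet Gd)
    {A : Z → Set (X × X)} (hA : ∀ z, MeasurableSet (A z)) {β : ℝ≥0∞}
    (hβ : (μ.prod μ) {p | p.1 ∈ Gd ∧ p.2 ∈ Gd ∧ ∀ z, p ∉ A z} ≤ β) :
    μ Gd ^ N ≤ (N : ℝ≥0∞) ^ 2 * β +
      ∑ z, (N : ℝ≥0∞) ^ (m + 1) * (Measure.pi fun _ : Fin (m + 1) => μ) (Ch m Gd (A z)) := by
  classical
  set P : Measure (Fin N → X) := Measure.pi fun _ => μ with hP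
  set Bad : Set (X × X) := {p | p.1 ∈ Gd ∧ p.2 ∈ Gd ∧ ∀ z, p ∉ A z} with hBad
  have hBm : MeasurableSet Bad := by
    have : Bad = (Prod.fst ⁻¹' Gd) ∩ ((Prod.snd ⁻¹' Gd) ∩ ⋂ z, (A z)ᶜ) := by
      ext p; simp [hBad]
    rw [this]
    exact (measurable_fst hGd).inter ((measurable_snd hGd).inter
      (MeasurableSet.iInter fun z => (hA z).compl))
  have h0 : P {x | ∀ i, x i ∈ Gd} = μ Gd ^ N := by
    have : {x : Fin N → X | ∀ i, x i ∈ Gd} = Set.pi univ fun _ => Gd := by
      ext x; simp
    rw [this, hP, Measure.pi_pi]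
    simp
  have hsub : {x : Fin N → X | ∀ i, x i ∈ Gd} ⊆
      (⋃ p : {p : Fin N × Fin N // p.1 ≠ p.2}, {x : Fin N → X | (x p.1.1, x p.1.2) ∈ Bad}) ∪
      ⋃ q : Z × {f : Fin (m + 1) → Fin N // Function.Injective f},
        {x : Fin N → X | (fun k => x (q.2.1 k)) ∈ Ch m Gd (A q.1)} := by
    intro x hx
    by_cases hb : ∃ i j : Fin N, i < j ∧ (x i, x j) ∈ Bad
    · obtain ⟨i, j, hij, h⟩ := hb
      exact Or.inl (mem_iUnion.2 ⟨⟨(i, j), hij.ne⟩, h⟩)
    · push Not at hb
      have hc : ∀ i j, i < j → ∃ z, (x i, x j) ∈ A z := by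
        intro i j hij
        by_contra hcon
        push Not at hcon
        exact hb i j hij ⟨hx i, hx j, hcon⟩
      obtain ⟨z, f, hf, hk⟩ := exists_path (Z := Z) hN (col := fun i j z => (x i, x j) ∈ A z) hc
      exact Or.inr (mem_iUnion.2 ⟨(z, ⟨f, hf.injective⟩), ⟨fun k => hx _, hk⟩⟩)
  rw [← h0]
  refine (measure_mono hsub).trans ((measure_union_le _ _).trans (add_le_add ?_ ?_))
  · refine (measure_iUnion_fintype_le _ _).trans ?_
    have h1 : ∀ p : {p : Fin N × Fin N // p.1 ≠ p.2},
        P {x : Fin N → X | (x p.1.1, x p.1.2) ∈ Bad} ≤ β := by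
      intro p
      have := (mp_pair μ p.2).measure_preimage hBm.nullMeasurableSet
      exact (le_of_eq this).trans hβ
    refine (Finset.sum_le_sum fun p _ => h1 p).trans ?_
    rw [Finset.sum_const, nsmul_eq_mul]
    refine mul_le_mul_left ?_ _
    have h2 : Fintype.card {p : Fin N × Fin N // p.1 ≠ p.2} ≤ N ^ 2 := by
      refine (Fintype.card_subtype_le _).trans ?_
      simp [sq]
    calc ((Finset.univ : Finset {p : Fin N × Fin N // p.1 ≠ p.2}).card : ℝ≥0∞)
        ≤ ((N ^ 2 : ℕ) : ℝ≥0∞) := by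
          rw [Finset.card_univ]; exact_mod_cast h2
      _ = (N : ℝ≥0∞) ^ 2 := by push_cast; rfl
  · refine (measure_iUnion_fintype_le _ _).trans ?_
    rw [Fintype.sum_prod_type]
    refine Finset.sum_le_sum fun z _ => ?_
    have h1 : ∀ f : {f : Fin (m + 1) → Fin N // Function.Injective f},
        P {x : Fin N → X | (fun k => x (f.1 k)) ∈ Ch m Gd (A z)} =
          (Measure.pi fun _ : Fin (m + 1) => μ) (Ch m Gd (A z)) := by
      intro f
      exact (mp_comp μ f.2).measure_preimage (measurableSet_Ch m hGd (hA z)).nullMeasurableSet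
    simp only [h1]
    rw [Finset.sum_const, nsmul_eq_mul]
    refine mul_le_mul_left ?_ _
    have h2 : Fintype.card {f : Fin (m + 1) → Fin N // Function.Injective f} ≤ N ^ (m + 1) := by
      refine (Fintype.card_subtype_le _).trans ?_
      simp
    calc ((Finset.univ : Finset {f : Fin (m + 1) → Fin N // Function.Injective f}).card : ℝ≥0∞)
        ≤ ((N ^ (m + 1) : ℕ) : ℝ≥0∞) := by
          rw [Finset.card_univ]; exact_mod_cast h2
      _ = (N : ℝ≥0∞) ^ (m + 1) := by push_cast; rfl

end Vale.Agent.P148.R2.H782
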