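import Vale.Agent.P148.R2.H782.Chain

/-!
# A chain of blocks with a prescribed drift has a probability which is bounded below

Gates `g` (law `μ`), sections `y` (law `ν`), corners `w` (laws `ω j`), all independent. A section
between two gates is good when `(g, y, g') ∈ E`, and then it has the value `v (g, y, g') : ℂ`.
If for most pairs of good gates the section is good with a probability which is bounded below, and
the second moment of the value is bounded, then there is ONE number `z` such that with a probability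
which is bounded below all the gates, sections and corners are good and all the values are within
`ε` of `z`. The bound does not depend on the spaces.
-/

open MeasureTheory Set
open scoped ENNReal

namespace Vale.Agent.P148.R2.H782

section Curry

variable {X : Type*} [MeasurableSpace X] {I K : Type*}

/-- Currying as a measurable equivalence. -/
def curryE (I K X : Type*) [MeasurableSpace X] : (I × K → X) ≃ᵐ (I → K → X) where
  toEquiv := Equiv.curry I K X
  measurable_toFun := measurable_pi_lambda _ fun i => measurable_pi_lambda _ fun k =>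
    measurable_pi_apply (i, k)
  measurable_invFun := measurable_pi_lambda _ fun p =>
    (measurable_pi_apply p.2).comp (measurable_pi_apply p.1)

theorem mp_curry [Fintype I] [Fintype K] (μ : Measure X) [IsProbabilityMeasure μ] :
    MeasurePreserving (fun g : I × K → X => fun i k => g (i, k)) (Measure.pi fun _ : I × K => μ)
      (Measure.pi fun _ : I => Measure.pi fun _ : K => μ) := by
  have h : MeasurePreserving (curryE I K X).symm
      (Measure.pi fun _ : I => Measure.pi fun _ : K => μ) (Measure.pi fun _ : I × K => μ) := by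
    refine ⟨(curryE I K X).symm.measurable, ?_⟩
    symm
    refine Measure.pi_eq fun s hs => ?_
    rw [Measure.map_apply (curryE I K X).symm.measurable (MeasurableSet.univ_pi hs)]
    have h1 : ((curryE I K X).symm : (I → K → X) → (I × K → X)) ⁻¹' (Set.pi univ s) =
        Set.pi univ fun i => Set.pi univ fun k => s (i, k) := by
      ext G
      constructor
      · intro hG i _ k _
        exact hG (i, k) (mem_univ _)
      · intro hG p _
        exact hG p.1 (mem_univ _) p.2 (mem_univ _)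
    rw [h1, Measure.pi_pi]
    simp_rw [Measure.pi_pi]
    rw [Fintype.prod_prod_type]
  exact h.symm

end Curry

section Kernel

variable {X Y : Type*} [MeasurableSpace X] [MeasurableSpace Y]

theorem measurable_kernel (ν : Measure Y) [IsProbabilityMeasure ν] {E : Set (X × Y × X)}
    (hE : MeasurableSet E) : Measurable fun p : X × X => ν {y | (p.1, y, p.2) ∈ E} := by
  have hm : Measurable fun q : (X × X) × Y => ((q.1.1, q.2, q.1.2) : X × Y × X) := by fun_prop
  exact measurable_measure_prodMk_left (hm hE)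

/-- One block: if the event has probability at least `c₁` and the second moment of the value on it
is at most `C`, then the value is near a point of a fixed finite set with a probability which is
bounded below. -/
theorem exists_value {ε r c₁ C : ℝ} (hr : 0 < r) (hc₁ : 0 < c₁)
    (hrC : 2 * C ≤ c₁ * r ^ 2) {Z : Finset ℂ} (hZ : Metric.closedBall (0 : ℂ) r ⊆
      ⋃ z ∈ Z, Metric.closedBall z ε) (ν : Measure Y) [IsProbabilityMeasure ν] {E : Set Y}
    {v : Y → ℂ} (hv : Measurable v) (h1 : ENNReal.ofReal c₁ ≤ ν E)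
    (h2 : ∫⁻ y in E, ‖v y‖ₑ ^ 2 ∂ν ≤ ENNReal.ofReal C) :
    ∃ z : Z, ENNReal.ofReal (c₁ / (2 * (Z.card + 1))) ≤ ν {y | y ∈ E ∧ ‖v y - z‖ ≤ ε} := by
  classical
  by_contra hcon
  push Not at hcon
  -- Markov
  have hmark : ν {y | y ∈ E ∧ r < ‖v y‖} ≤ ENNReal.ofReal (c₁ / 2) := by
    have ha : ENNReal.ofReal (r ^ 2) * ν {y | y ∈ E ∧ r < ‖v y‖} ≤
        ∫⁻ y in E, ‖v y‖ₑ ^ 2 ∂ν := by
      have hsub : {y | y ∈ E ∧ r < ‖v y‖} ⊆ {y | ENNReal.ofReal (r ^ 2) ≤ ‖v y‖ₑ ^ 2} ∩ E := by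
        intro y hy
        refine ⟨?_, hy.1⟩
        have h3 : ENNReal.ofReal r ≤ ‖v y‖ₑ := by
          rw [← ofReal_norm]
          exact ENNReal.ofReal_le_ofReal hy.2.le
        show ENNReal.ofReal (r ^ 2) ≤ ‖v y‖ₑ ^ 2
        rw [ENNReal.ofReal_pow hr.le]
        gcongr
      calc ENNReal.ofReal (r ^ 2) * ν {y | y ∈ E ∧ r < ‖v y‖}
          ≤ ENNReal.ofReal (r ^ 2) *
            (ν.restrict E) {y | ENNReal.ofReal (r ^ 2) ≤ ‖v y‖ₑ ^ 2} := by
            rw [Measure.restrict_apply (measurableSet_le measurable_const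
              (hv.enorm.pow_const 2))]
            exact mul_le_mul_right (measure_mono hsub) _
        _ ≤ ∫⁻ y in E, ‖v y‖ₑ ^ 2 ∂ν :=
            mul_meas_ge_le_lintegral (hv.enorm.pow_const 2) _
    have hr2 : (0 : ℝ) < r ^ 2 := by positivity
    have hb : ν {y | y ∈ E ∧ r < ‖v y‖} ≤ ENNReal.ofReal C / ENNReal.ofReal (r ^ 2) := by
      rw [ENNReal.le_div_iff_mul_le (Or.inl (by simp [hr.ne'])) (Or.inl (by simp)),
        mul_comm]
      exact ha.trans h2
    refine hb.trans ?_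
    rw [← ENNReal.ofReal_div_of_pos hr2]
    refine ENNReal.ofReal_le_ofReal ?_
    rw [div_le_iff₀ hr2]
    linarith
  have hcov : E ⊆ {y | y ∈ E ∧ r < ‖v y‖} ∪ ⋃ z : Z, {y | y ∈ E ∧ ‖v y - z‖ ≤ ε} := by
    intro y hy
    by_cases hyr : r < ‖v y‖
    · exact Or.inl ⟨hy, hyr⟩
    · push Not at hyr
      have h4 : v y ∈ Metric.closedBall (0 : ℂ) r := by simpa using hyr
      obtain ⟨z, hz, hzy⟩ := by simpa using hZ h4
      refine Or.inr (mem_iUnion.2 ⟨⟨z, hz⟩, hy, ?_⟩)
      simpa [dist_eq_norm] using hzy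
  have hsum : ν E ≤ ENNReal.ofReal (c₁ / 2) +
      ∑ z : Z, ν {y | y ∈ E ∧ ‖v y - z‖ ≤ ε} :=
    (measure_mono hcov).trans ((measure_union_le _ _).trans
      (add_le_add hmark (measure_iUnion_fintype_le _ _)))
  have hlt : ∑ z : Z, ν {y | y ∈ E ∧ ‖v y - z‖ ≤ ε} ≤
      Z.card * ENNReal.ofReal (c₁ / (2 * (Z.card + 1))) := by
    refine (Finset.sum_le_sum fun z _ => (hcon z).le).trans ?_
    simp
  have h5 : (Z.card : ℝ≥0∞) * ENNReal.ofReal (c₁ / (2 * (Z.card + 1))) < ENNReal.ofReal (c₁ / 2) := by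
    rw [← ENNReal.ofReal_natCast, ← ENNReal.ofReal_mul (Nat.cast_nonneg _)]
    rw [ENNReal.ofReal_lt_ofReal_iff (by positivity)]
    have hk : (0 : ℝ) < (Z.card : ℝ) + 1 := by positivity
    rw [mul_div_assoc', div_lt_div_iff₀ (by positivity) (by positivity)]
    nlinarith
  have h6 : ENNReal.ofReal c₁ < ENNReal.ofReal c₁ := by
    calc ENNReal.ofReal c₁ ≤ ν E := h1
      _ ≤ ENNReal.ofReal (c₁ / 2) + Z.card * ENNReal.ofReal (c₁ / (2 * (Z.card + 1))) :=
          hsum.trans (by gcongr)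
      _ < ENNReal.ofReal (c₁ / 2) + ENNReal.ofReal (c₁ / 2) := by
          exact (ENNReal.add_lt_add_iff_left (by simp)).2 h5
      _ = ENNReal.ofReal c₁ := by
          rw [← ENNReal.ofReal_add (by positivity) (by positivity)]
          congr 1
          ring
  exact lt_irrefl _ h6

end Kernel

theorem exists_grid {ε : ℝ} (hε : 0 < ε) (r : ℝ) : ∃ Z : Finset ℂ,
    (∀ z ∈ Z, z ∈ Metric.closedBall (0 : ℂ) r) ∧
    Metric.closedBall (0 : ℂ) r ⊆ ⋃ z ∈ Z, Metric.closedBall z ε := by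
  obtain ⟨t, ht, hf, hc⟩ := (isCompact_closedBall (0 : ℂ) r).finite_cover_balls hε
  refine ⟨hf.toFinset, fun z hz => ht (by simpa using hz), hc.trans ?_⟩
  intro x hx
  simp only [mem_iUnion] at hx ⊢
  obtain ⟨z, hz, hxz⟩ := hx
  exact ⟨z, by simpa using hz, Metric.ball_subset_closedBall hxz⟩

universe u v w

/-- The event that all the blocks are good and all the values are within `ε` of `z`. -/
def Goodev {I J : Type*} (a b : J → I) (m : ℕ) (ε : ℝ) (z : ℂ) {X : Type u} {Y : Type v}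
    {W : Type w} (Gd : Set X) (E : Set (X × Y × X)) (val : X × Y × X → ℂ)
    (Ec : J → Set (X × W × X)) :
    Set ((I × Fin (m + 1) → X) × (I × Fin m → Y) × (J → W)) :=
  {q | (∀ i k, q.1 (i, k) ∈ Gd) ∧
    (∀ i (k : Fin m), (q.1 (i, k.castSucc), q.2.1 (i, k), q.1 (i, k.succ)) ∈ E ∧
      ‖val (q.1 (i, k.castSucc), q.2.1 (i, k), q.1 (i, k.succ)) - z‖ ≤ ε) ∧
    ∀ j, (q.1 (a j, Fin.last m), q.2.2 j, q.1 (b j, 0)) ∈ Ec j}

theorem measurableSet_Goodev {I J : Type*} [Fintype I] [Fintype J] (a b : J → I) (m : ℕ) (ε : ℝ)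
    (z : ℂ) {X : Type u} {Y : Type v} {W : Type w} [MeasurableSpace X] [MeasurableSpace Y]
    [MeasurableSpace W] {Gd : Set X} (hGd : MeasurableSet Gd) {E : Set (X × Y × X)}
    (hE : MeasurableSet E) {val : X × Y × X → ℂ} (hv : Measurable val)
    {Ec : J → Set (X × W × X)} (hEc : ∀ j, MeasurableSet (Ec j)) :
    MeasurableSet (Goodev a b m ε z Gd E val Ec) := by
  have h1 : ∀ p : I × Fin (m + 1), Measurable
      fun q : (I × Fin (m + 1) → X) × (I × Fin m → Y) × (J → W) => q.1 p := fun p =>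
    (measurable_pi_apply p).comp measurable_fst
  have h2 : ∀ p : I × Fin m, Measurable
      fun q : (I × Fin (m + 1) → X) × (I × Fin m → Y) × (J → W) => q.2.1 p := fun p =>
    (measurable_pi_apply p).comp (measurable_fst.comp measurable_snd)
  have h3 : ∀ j : J, Measurable
      fun q : (I × Fin (m + 1) → X) × (I × Fin m → Y) × (J → W) => q.2.2 j := fun j =>
    (measurable_pi_apply j).comp (measurable_snd.comp measurable_snd)
  have hE' : MeasurableSet {p : X × Y × X | p ∈ E ∧ ‖val p - z‖ ≤ ε} :=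
    hE.inter (measurableSet_le (hv.sub_const z).norm measurable_const)
  have he : Goodev a b m ε z Gd E val Ec =
      ((⋂ i, ⋂ k, {q | q.1 (i, k) ∈ Gd}) ∩ (⋂ i, ⋂ k : Fin m,
        {q | (q.1 (i, k.castSucc), q.2.1 (i, k), q.1 (i, k.succ)) ∈
          {p : X × Y × X | p ∈ E ∧ ‖val p - z‖ ≤ ε}})) ∩
      ⋂ j, {q | (q.1 (a j, Fin.last m), q.2.2 j, q.1 (b j, 0)) ∈ Ec j} := by
    ext q
    simp only [Goodev, mem_ofPred_eq, mem_inter_iff, mem_iInter, and_assoc]
  rw [he]
  refine ((MeasurableSet.iInter fun i => MeasurableSet.iInter fun k => h1 (i, k) hGd).inter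
    (MeasurableSet.iInter fun i => MeasurableSet.iInter fun k => ?_)).inter
    (MeasurableSet.iInter fun j => ?_)
  · exact ((h1 _).prodMk ((h2 _).prodMk (h1 _))) hE'
  · exact ((h1 _).prodMk ((h3 _).prodMk (h1 _))) (hEc j)

/-- **The chain bound.** -/
theorem drift_chain {I J : Type*} [Fintype I] [Fintype J] (a b : J → I) (hab : ∀ j, a j ≠ b j)
    (m : ℕ) {ε c₀ c₁ C : ℝ} (hε : 0 < ε) (hc₀ : 0 < c₀) (hc₁ : 0 < c₁) (hC : 0 ≤ C) :
    ∃ c > 0, ∃ β > 0, ∃ r > 0, ∀ {X : Type u} {Y : Type v} {W : Type w} [MeasurableSpace X]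
      [MeasurableSpace Y] [MeasurableSpace W] (μ : Measure X) [IsProbabilityMeasure μ]
      (ν : Measure Y) [IsProbabilityMeasure ν] (ω : J → Measure W)
      [∀ j, IsProbabilityMeasure (ω j)] {Gd : Set X} (_ : MeasurableSet Gd)
      {E : Set (X × Y × X)} (_ : MeasurableSet E) {val : X × Y × X → ℂ} (_ : Measurable val)
      {Ec : J → Set (X × W × X)} (_ : ∀ j, MeasurableSet (Ec j)),
      ENNReal.ofReal c₀ ≤ μ Gd →
      (μ.prod μ) {p | p.1 ∈ Gd ∧ p.2 ∈ Gd ∧ ¬ (ENNReal.ofReal c₁ ≤ ν {y | (p.1, y, p.2) ∈ E} ∧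
        ∫⁻ y in {y | (p.1, y, p.2) ∈ E}, ‖val (p.1, y, p.2)‖ₑ ^ 2 ∂ν ≤ ENNReal.ofReal C)} ≤
          ENNReal.ofReal β →
      (∀ j, (μ.prod μ) {p | p.1 ∈ Gd ∧ p.2 ∈ Gd ∧
        ¬ ENNReal.ofReal c₁ ≤ ω j {y | (p.1, y, p.2) ∈ Ec j}} ≤ ENNReal.ofReal β) →
      ∃ z : ℂ, ‖z‖ ≤ r ∧ ENNReal.ofReal c ≤
        ((Measure.pi fun _ : I × Fin (m + 1) => μ).prod ((Measure.pi fun _ : I × Fin m => ν).prod
          (Measure.pi ω))) (Goodev a b m ε z Gd E val Ec) := by
  classical
  obtain ⟨r, hr, hrC⟩ : ∃ r > 0, 2 * C ≤ c₁ * r ^ 2 := by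
    refine ⟨Real.sqrt (2 * C / c₁) + 1, by positivity, ?_⟩
    have h1 : Real.sqrt (2 * C / c₁) ^ 2 = 2 * C / c₁ := Real.sq_sqrt (by positivity)
    have h2 : 0 ≤ Real.sqrt (2 * C / c₁) := Real.sqrt_nonneg _
    have h3 : 2 * C / c₁ ≤ (Real.sqrt (2 * C / c₁) + 1) ^ 2 := by nlinarith
    calc 2 * C = c₁ * (2 * C / c₁) := by field_simp
      _ ≤ _ := by gcongr
  obtain ⟨Z, hZr, hZ⟩ := exists_grid hε r
  set N : ℕ := m ^ Z.card + 1 with hN
  set c₂ : ℝ := c₁ / (2 * (Z.card + 1)) with hc₂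
  have hc₂0 : 0 < c₂ := by positivity
  set c₃ : ℝ := c₀ ^ N / (2 * (Z.card + 1) * (N : ℝ) ^ (m + 1)) with hc₃
  have hN0 : (0 : ℝ) < N := by rw [hN]; positivity
  have hc₃0 : 0 < c₃ := by positivity
  set β : ℝ := min (c₀ ^ N / (2 * (N : ℝ) ^ 2))
    (c₃ ^ Fintype.card I / (2 * (Fintype.card J + 1))) with hβ
  have hβ0 : 0 < β := lt_min (by positivity) (by positivity)
  refine ⟨c₂ ^ Fintype.card (I × Fin m) * c₁ ^ Fintype.card J *
    (c₃ ^ Fintype.card I / 2), by positivity, β, hβ0, r, hr, ?_⟩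
  intro X Y W _ _ _ μ _ ν _ ω _ Gd hGd E hE val hv Ec hEc h0 h1 h2
  set E' : Z → Set (X × Y × X) := fun z => {p | p ∈ E ∧ ‖val p - z‖ ≤ ε} with hE'
  have hE'm : ∀ z, MeasurableSet (E' z) := fun z =>
    hE.inter (measurableSet_le (hv.sub_const _).norm measurable_const)
  set A : Z → Set (X × X) := fun z => {p | ENNReal.ofReal c₂ ≤ ν {y | (p.1, y, p.2) ∈ E' z}}
    with hA
  have hAm : ∀ z, MeasurableSet (A z) := fun z =>
    measurableSet_le measurable_const (measurable_kernel ν (hE'm z))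
  have hbad : (μ.prod μ) {p | p.1 ∈ Gd ∧ p.2 ∈ Gd ∧ ∀ z, p ∉ A z} ≤ ENNReal.ofReal β := by
    refine (measure_mono ?_).trans h1
    rintro p ⟨hp1, hp2, hp3⟩
    refine ⟨hp1, hp2, fun hcon => ?_⟩
    have hm1 : Measurable fun y : Y => ((p.1, y, p.2) : X × Y × X) := by fun_prop
    obtain ⟨z, hz⟩ := exists_value hr hc₁ hrC hZ ν (hv.comp hm1) hcon.1 hcon.2
    exact hp3 z hz
  have hpath := path_measure (m := m) (N := N) (Z := Z) (by simp [hN]) μ hGd hAm hbad
  -- one colour
  obtain ⟨z, hz⟩ : ∃ z : Z, ENNReal.ofReal c₃ ≤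
      (Measure.pi fun _ : Fin (m + 1) => μ) (Ch m Gd (A z)) := by
    by_contra hcon
    push Not at hcon
    have hs : ∑ z : Z, (N : ℝ≥0∞) ^ (m + 1) *
        (Measure.pi fun _ : Fin (m + 1) => μ) (Ch m Gd (A z)) ≤
        ENNReal.ofReal (Z.card * ((N : ℝ) ^ (m + 1) * c₃)) := by
      refine (Finset.sum_le_sum fun z _ => mul_le_mul_right (hcon z).le _).trans ?_
      rw [Finset.sum_const, nsmul_eq_mul, ENNReal.ofReal_mul (by positivity),
        ENNReal.ofReal_mul (by positivity)]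
      simp [ENNReal.ofReal_pow]
    have hb : (N : ℝ≥0∞) ^ 2 * ENNReal.ofReal β ≤ ENNReal.ofReal (c₀ ^ N / 2) := by
      have : (N : ℝ≥0∞) ^ 2 = ENNReal.ofReal ((N : ℝ) ^ 2) := by simp [ENNReal.ofReal_pow]
      rw [this, ← ENNReal.ofReal_mul (by positivity)]
      refine ENNReal.ofReal_le_ofReal ?_
      calc (N : ℝ) ^ 2 * β ≤ (N : ℝ) ^ 2 * (c₀ ^ N / (2 * (N : ℝ) ^ 2)) := by
            gcongr; exact min_le_left _ _
        _ = c₀ ^ N / 2 := by field_simp
    have h3 : ENNReal.ofReal (c₀ ^ N) ≤ ENNReal.ofReal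
        (c₀ ^ N / 2 + Z.card * ((N : ℝ) ^ (m + 1) * c₃)) := by
      rw [ENNReal.ofReal_add (by positivity) (by positivity), ENNReal.ofReal_pow hc₀.le]
      exact (by gcongr : ENNReal.ofReal c₀ ^ N ≤ μ Gd ^ N).trans (hpath.trans (add_le_add hb hs))
    rw [ENNReal.ofReal_le_ofReal_iff (by positivity)] at h3
    have h4 : (Z.card : ℝ) * ((N : ℝ) ^ (m + 1) * c₃) = c₀ ^ N / 2 * (Z.card / (Z.card + 1)) := by
      rw [hc₃]; field_simp
    have h5 : (Z.card : ℝ) / (Z.card + 1) < 1 := by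
      rw [div_lt_one (by positivity)]; linarith
    have h6 : 0 < c₀ ^ N / 2 := by positivity
    nlinarith
  refine ⟨z, by simpa using hZr z z.2, ?_⟩
  -- the gates
  set PG : Measure (I × Fin (m + 1) → X) := Measure.pi fun _ => μ with hPG
  set T : Set (I × Fin (m + 1) → X) := {g | (∀ i, (fun k => g (i, k)) ∈ Ch m Gd (A z)) ∧
    ∀ j, ENNReal.ofReal c₁ ≤ ω j {y | (g (a j, Fin.last m), y, g (b j, 0)) ∈ Ec j}} with hT
  have hall : PG {g | ∀ i, (fun k => g (i, k)) ∈ Ch m Gd (A z)} =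
      (Measure.pi fun _ : Fin (m + 1) => μ) (Ch m Gd (A z)) ^ Fintype.card I := by
    have hset : {g : I × Fin (m + 1) → X | ∀ i, (fun k => g (i, k)) ∈ Ch m Gd (A z)} =
        (fun g : I × Fin (m + 1) → X => fun i k => g (i, k)) ⁻¹'
          (Set.pi univ fun _ => Ch m Gd (A z)) := by
      ext g; simp
    rw [hset, (mp_curry (I := I) (K := Fin (m + 1)) μ).measure_preimage
      (MeasurableSet.univ_pi fun _ => measurableSet_Ch m hGd (hAm z)).nullMeasurableSet,
      Measure.pi_pi]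
    simp
  have hTm : MeasurableSet T := by
    have : T = (⋂ i, (fun g : I × Fin (m + 1) → X => fun k => g (i, k)) ⁻¹' Ch m Gd (A z)) ∩
        ⋂ j, (fun g : I × Fin (m + 1) → X => (g (a j, Fin.last m), g (b j, 0))) ⁻¹'
          {p | ENNReal.ofReal c₁ ≤ ω j {y | (p.1, y, p.2) ∈ Ec j}} := by
      ext g; simp [hT]
    rw [this]
    refine (MeasurableSet.iInter fun i => ?_).inter (MeasurableSet.iInter fun j => ?_)
    · exact (measurable_pi_lambda _ fun k => measurable_pi_apply _)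
        (measurableSet_Ch m hGd (hAm z))
    · exact ((measurable_pi_apply _).prodMk (measurable_pi_apply _))
        (measurableSet_le measurable_const (measurable_kernel (ω j) (hEc j)))
  have hTlow : ENNReal.ofReal (c₃ ^ Fintype.card I / 2) ≤ PG T := by
    have hcov : {g : I × Fin (m + 1) → X | ∀ i, (fun k => g (i, k)) ∈ Ch m Gd (A z)} ⊆ T ∪
        ⋃ j, (fun g : I × Fin (m + 1) → X => (g (a j, Fin.last m), g (b j, 0))) ⁻¹'
          {p | p.1 ∈ Gd ∧ p.2 ∈ Gd ∧ ¬ ENNReal.ofReal c₁ ≤ ω j {y | (p.1, y, p.2) ∈ Ec j}} := by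
      intro g hg
      by_cases h : g ∈ T
      · exact Or.inl h
      · right
        rw [mem_iUnion]
        have h' : ¬ ∀ j, ENNReal.ofReal c₁ ≤
            ω j {y | (g (a j, Fin.last m), y, g (b j, 0)) ∈ Ec j} := fun hh => h ⟨hg, hh⟩
        push Not at h'
        obtain ⟨j, hj⟩ := h'
        exact ⟨j, (hg (a j)).1 _, (hg (b j)).1 _, not_le.2 hj⟩
    have hj : ∀ j, PG ((fun g : I × Fin (m + 1) → X => (g (a j, Fin.last m), g (b j, 0))) ⁻¹'
        {p | p.1 ∈ Gd ∧ p.2 ∈ Gd ∧ ¬ ENNReal.ofReal c₁ ≤ ω j {y | (p.1, y, p.2) ∈ Ec j}}) ≤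
          ENNReal.ofReal β := by
      intro j
      have hne : ((a j, Fin.last m) : I × Fin (m + 1)) ≠ (b j, 0) := fun h =>
        hab j (congrArg Prod.fst h)
      have hms : MeasurableSet {p : X × X | p.1 ∈ Gd ∧ p.2 ∈ Gd ∧
          ¬ ENNReal.ofReal c₁ ≤ ω j {y | (p.1, y, p.2) ∈ Ec j}} := by
        refine (measurable_fst hGd).inter ((measurable_snd hGd).inter ?_)
        exact (measurableSet_le measurable_const (measurable_kernel (ω j) (hEc j))).compl
      rw [(mp_pair μ hne).measure_preimage hms.nullMeasurableSet]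
      exact h2 j
    have hsum : ENNReal.ofReal (c₃ ^ Fintype.card I) ≤
        PG T + ENNReal.ofReal (c₃ ^ Fintype.card I / 2) := by
      calc ENNReal.ofReal (c₃ ^ Fintype.card I)
          = ENNReal.ofReal c₃ ^ Fintype.card I := ENNReal.ofReal_pow hc₃0.le _
        _ ≤ PG {g | ∀ i, (fun k => g (i, k)) ∈ Ch m Gd (A z)} := by
            rw [hall]; gcongr
        _ ≤ PG T + ∑ j : J, ENNReal.ofReal β :=
            (measure_mono hcov).trans ((measure_union_le _ _).trans (add_le_add le_rfl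
              ((measure_iUnion_fintype_le _ _).trans (Finset.sum_le_sum fun j _ => hj j))))
        _ ≤ PG T + ENNReal.ofReal (c₃ ^ Fintype.card I / 2) := by
            gcongr
            rw [Finset.sum_const, nsmul_eq_mul, Finset.card_univ, ← ENNReal.ofReal_natCast,
              ← ENNReal.ofReal_mul (by positivity)]
            refine ENNReal.ofReal_le_ofReal ?_
            calc (Fintype.card J : ℝ) * β ≤ (Fintype.card J : ℝ) *
                  (c₃ ^ Fintype.card I / (2 * (Fintype.card J + 1))) := by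
                  gcongr; exact min_le_right _ _
              _ = c₃ ^ Fintype.card I / 2 * (Fintype.card J / (Fintype.card J + 1)) := by
                  field_simp
              _ ≤ c₃ ^ Fintype.card I / 2 * 1 := by
                  gcongr
                  rw [div_le_one (by positivity)]; linarith
              _ = _ := mul_one _
    have hhalf : ENNReal.ofReal (c₃ ^ Fintype.card I) =
        ENNReal.ofReal (c₃ ^ Fintype.card I / 2) + ENNReal.ofReal (c₃ ^ Fintype.card I / 2) := by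
      rw [← ENNReal.ofReal_add (by positivity) (by positivity)]
      congr 1; ring
    rw [hhalf] at hsum
    exact (ENNReal.add_le_add_iff_right (by simp)).1 hsum
  -- the sections and the corners
  rw [Measure.prod_apply (measurableSet_Goodev a b m ε z hGd hE hv hEc)]
  have hsec : ∀ g ∈ T, ENNReal.ofReal (c₂ ^ Fintype.card (I × Fin m) * c₁ ^ Fintype.card J) ≤
      ((Measure.pi fun _ : I × Fin m => ν).prod (Measure.pi ω))
        (Prod.mk g ⁻¹' Goodev a b m ε z Gd E val Ec) := by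
    intro g hg
    have hsub : (Set.pi univ fun p : I × Fin m =>
        {y | (g (p.1, p.2.castSucc), y, g (p.1, p.2.succ)) ∈ E' z}) ×ˢ
        (Set.pi univ fun j : J => {y | (g (a j, Fin.last m), y, g (b j, 0)) ∈ Ec j}) ⊆
        Prod.mk g ⁻¹' Goodev a b m ε z Gd E val Ec := by
      rintro ⟨y, w⟩ ⟨hy, hw⟩
      refine ⟨fun i k => (hg.1 i).1 k, fun i k => ?_, fun j => hw j (mem_univ _)⟩
      exact hy (i, k) (mem_univ _)
    refine le_trans ?_ (measure_mono hsub)
    rw [Measure.prod_prod, Measure.pi_pi, Measure.pi_pi, ENNReal.ofReal_mul (by positivity),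
      ENNReal.ofReal_pow hc₂0.le, ENNReal.ofReal_pow hc₁.le]
    refine mul_le_mul' ?_ ?_
    · rw [← Finset.card_univ, ← Finset.prod_const]
      exact Finset.prod_le_prod' fun p _ => (hg.1 p.1).2 p.2
    · rw [← Finset.card_univ, ← Finset.prod_const]
      exact Finset.prod_le_prod' fun j _ => hg.2 j
  calc ENNReal.ofReal (c₂ ^ Fintype.card (I × Fin m) * c₁ ^ Fintype.card J *
        (c₃ ^ Fintype.card I / 2))
      = ENNReal.ofReal (c₂ ^ Fintype.card (I × Fin m) * c₁ ^ Fintype.card J) *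
        ENNReal.ofReal (c₃ ^ Fintype.card I / 2) := ENNReal.ofReal_mul (by positivity)
    _ ≤ ENNReal.ofReal (c₂ ^ Fintype.card (I × Fin m) * c₁ ^ Fintype.card J) * PG T := by
        gcongr
    _ = ∫⁻ _ in T, ENNReal.ofReal (c₂ ^ Fintype.card (I × Fin m) * c₁ ^ Fintype.card J) ∂PG := by
        rw [lintegral_const, Measure.restrict_apply_univ]
    _ ≤ ∫⁻ g in T, ((Measure.pi fun _ : I × Fin m => ν).prod (Measure.pi ω))
        (Prod.mk g ⁻¹' Goodev a b m ε z Gd E val Ec) ∂PG :=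
        setLIntegral_mono' hTm fun g hg => hsec g hg
    _ ≤ _ := setLIntegral_le_lintegral _ _

end Vale.Agent.P148.R2.H782
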