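import Mathlib

/-!
# Directed path Ramsey

If every pair `i < j` of `Fin N` has a colour in a finite type `Z` and `m ^ card Z < N`, then there
is an increasing sequence of `m + 1` points all of whose consecutive pairs have the same colour.
-/

namespace Vale.Agent.P148.R2.H782

open Finset

variable {Z : Type*}

/-- `P z l j`: there is an increasing `z`-coloured path with `l` edges which ends at `j`. -/
def PathTo {N : ℕ} (col : Fin N → Fin N → Z → Prop) (z : Z) : ℕ → Fin N → Prop
  | 0, _ => True
  | l + 1, j => ∃ i, i < j ∧ col i j z ∧ PathTo col z l i

theorem PathTo.exists {N : ℕ} {col : Fin N → Fin N → Z → Prop} {z : Z} :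
    ∀ {l : ℕ} {j : Fin N}, PathTo col z l j → ∃ f : Fin (l + 1) → Fin N, StrictMono f ∧
      f (Fin.last l) = j ∧ ∀ k : Fin l, col (f k.castSucc) (f k.succ) z
  | 0, j, _ => ⟨fun _ => j, by
      intro a b h
      exact absurd h (by omega), rfl, fun k => k.elim0⟩
  | l + 1, j, h => by
      obtain ⟨i, hij, hc, hp⟩ := h
      obtain ⟨f, hf, hl, hk⟩ := hp.exists
      refine ⟨Fin.snoc f j, ?_, by simp, ?_⟩
      · intro a b hab
        induction b using Fin.lastCases with
        | last =>
          induction a using Fin.lastCases with
          | last => exact absurd hab (lt_irrefl _)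
          | cast a =>
            simp only [Fin.snoc_castSucc, Fin.snoc_last]
            exact (hf.monotone (Fin.le_last a)).trans_lt (hl ▸ hij)
        | cast b =>
          induction a using Fin.lastCases with
          | last =>
            exfalso
            have h1 : (Fin.last (l + 1)).val < (b.castSucc).val := hab
            rw [Fin.val_last, Fin.val_castSucc] at h1
            omega
          | cast a =>
            simp only [Fin.snoc_castSucc]
            refine hf ?_
            have h1 : (a.castSucc).val < (b.castSucc).val := hab
            rw [Fin.val_castSucc, Fin.val_castSucc] at h1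
            exact h1
      · intro k
        induction k using Fin.lastCases with
        | last =>
          simp only [Fin.snoc_castSucc, Fin.succ_last, Fin.snoc_last]
          rw [hl]; exact hc
        | cast k =>
          rw [Fin.succ_castSucc]
          simp only [Fin.snoc_castSucc]
          exact hk k

theorem exists_path [Fintype Z] {m N : ℕ} (hN : m ^ Fintype.card Z < N)
    {col : Fin N → Fin N → Z → Prop} (hc : ∀ i j, i < j → ∃ z, col i j z) :
    ∃ z, ∃ f : Fin (m + 1) → Fin N, StrictMono f ∧
      ∀ k : Fin m, col (f k.castSucc) (f k.succ) z := by
  classical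
  by_contra hcon
  push Not at hcon
  have hno : ∀ z j, ¬ PathTo col z m j := by
    intro z j hp
    obtain ⟨f, hf, _, hk⟩ := hp.exists
    obtain ⟨k, hk'⟩ := hcon z f hf
    exact hk' (hk k)
  have hm : 0 < m := by
    rcases Nat.eq_zero_or_pos m with h | h
    · subst h
      exfalso
      have : 0 < N := lt_of_le_of_lt (Nat.zero_le _) hN
      have hz : Nonempty Z := by
        by_contra hz
        rw [not_nonempty_iff] at hz
        have h1 : Fintype.card Z = 0 := Fintype.card_eq_zero
        rw [h1, pow_zero] at hN
        obtain ⟨z, _⟩ := hc ⟨0, by omega⟩ ⟨1, by omega⟩ (by simp [Fin.lt_def])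
        exact hz.elim z
      obtain ⟨z⟩ := hz
      exact hno z ⟨0, this⟩ trivial
    · exact h
  -- the length of the longest path ending at `j`
  have hex : ∀ z j, ∃ l, PathTo col z l j ∧ ¬ PathTo col z (l + 1) j := by
    intro z j
    by_contra hh
    push Not at hh
    have : ∀ l, PathTo col z l j := by
      intro l
      induction l with
      | zero => exact trivial
      | succ l ih => exact hh l ih
    exact hno z j (this m)
  -- paths can be shortened
  have hshort : ∀ z l j, PathTo col z (l + 1) j → PathTo col z l j := by
    intro z l
    induction l with
    | zero => intro j _; trivial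
    | succ l ih =>
      intro j ⟨i, hij, hcc, hp⟩
      exact ⟨i, hij, hcc, ih i hp⟩
  have hmono : ∀ z l l' j, l ≤ l' → PathTo col z l' j → PathTo col z l j := by
    intro z l l' j hl
    induction hl with
    | refl => exact id
    | step _ ih => exact fun h => ih (hshort z _ j h)
  choose L hL1 hL2 using hex
  have hLm : ∀ z j, L z j < m := by
    intro z j
    by_contra hh
    push Not at hh
    exact hno z j (hmono z m _ j hh (hL1 z j))
  let F : Fin N → (Z → Fin m) := fun j z => ⟨L z j, hLm z j⟩
  have hinj : Function.Injective F := by
    have key : ∀ i j, i < j → F i ≠ F j := by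
      intro i j hij he
      obtain ⟨z, hz⟩ := hc i j hij
      have h1 : L z i = L z j := by
        have := congrFun he z
        simpa [F] using this
      exact hL2 z j ⟨i, hij, hz, h1 ▸ hL1 z i⟩
    intro i j he
    rcases lt_trichotomy i j with h | h | h
    · exact absurd he (key i j h)
    · exact h
    · exact absurd he.symm (key j i h)
  have hcard := Fintype.card_le_of_injective F hinj
  rw [Fintype.card_fin, Fintype.card_fun, Fintype.card_fin] at hcard
  omega

end Vale.Agent.P148.R2.H782
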